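import Vale.Agent.P114.Entropy

namespace Vale.Agent.Results.P114.ResidueInvariantIFS

open MeasureTheory Finset
open Vale.Agent.P114

open Classical in
theorem result {ι : Type} [Fintype ι] (r t p : ι → ℝ)
    (hp : ∀ i, 0 < p i) (hsum : ∑ i, p i = 1)
    (hr : ∀ i, ∃ b : ℕ, 2 ≤ b ∧ |r i| = 1 / (b : ℝ))
    (hinv : ∀ (i : ι) (f : ℝ → ℝ), Function.Periodic f 1 →
      ∑ j ∈ univ.filter (fun j => r j = r i), p j * f (t j + r i)
        = ∑ j ∈ univ.filter (fun j => r j = r i), p j * f (t j))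
    (μ : Measure ℝ) [IsProbabilityMeasure μ]
    (hμ : μ = ∑ i, ENNReal.ofReal (p i) • μ.map (fun x => r i * x + t i)) :
    μ ≪ volume ∧
    -∑ i, p i * Real.logb 2 |r i| ≤ entropyRate r t p ∧
    (⨅ (E : Set ℝ) (_ : MeasurableSet E) (_ : 0 < μ E), dimH E)
      = ENNReal.ofReal (min 1 (entropyRate r t p / -∑ i, p i * Real.logb 2 |r i|)) := by
  have hp' : ∀ i, 0 ≤ p i := fun i => (hp i).le
  have hχ := le_entropyRate hp hsum hr hinv
  refine ⟨Vale.Agent.P114.absolutelyContinuous μ hp' hsum hr hinv hμ, hχ, ?_⟩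
  rw [min_eq_left ((one_le_div (lyapunov_pos hp hsum hr)).2 hχ), ENNReal.ofReal_one]
  refine le_antisymm ?_ (le_iInf₂ fun E _ => le_iInf fun hE =>
    (dimH_eq_one μ hp' hsum hr hinv hμ hE).ge)
  exact (iInf₂_le Set.univ MeasurableSet.univ).trans
    ((iInf_le _ (by simp)).trans_eq Real.dimH_univ)

end Vale.Agent.Results.P114.ResidueInvariantIFS
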